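import Mathlib
import Crest.Prelude.Def_MassAction
import Crest.Agent.Perm.Defs
set_option autoImplicit false

/-!
S0122, module Const: the constants `B q`, `H q`, `Γ q`, `sc q ω b`.
-/

namespace Crest.Agent.Perm
open Finset Crest.AnalysisR.MassAction

section Const
variable {d : ℕ} (P : Par d)

theorem Par.one_le_B (q : ℕ) : 1 ≤ P.B q := by
  induction q with
  | zero => exact P.hB
  | succ q ih =>
    have hd := P.hd
    have h1 : 1 ≤ (P.B q) ^ 2 := Nat.one_le_pow _ _ ih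
    have h2 : P.B (q + 1) = 2 * d * (P.B q) ^ 2 := rfl
    rw [h2]
    nlinarith [Nat.mul_le_mul hd h1]

theorem Par.B_mono {q q' : ℕ} (h : q ≤ q') : P.B q ≤ P.B q' := by
  refine monotone_nat_of_le_succ (f := P.B) (fun q => ?_) h
  have hd := P.hd
  have h1 := P.one_le_B q
  have h2 : P.B (q + 1) = 2 * d * (P.B q) ^ 2 := rfl
  rw [h2]
  have h3 : P.B q ≤ (P.B q) ^ 2 := by nlinarith
  have h4 : 1 * (P.B q) ^ 2 ≤ d * (P.B q) ^ 2 := Nat.mul_le_mul_right _ hd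
  nlinarith

private theorem Par.one_le_dB (q : ℕ) : (1 : ℝ) ≤ ((d : ℝ) * (P.B q : ℝ)) ^ 2 := by
  have hd : (1 : ℝ) ≤ (d : ℝ) := by exact_mod_cast P.hd
  have hB : (1 : ℝ) ≤ (P.B q : ℝ) := by exact_mod_cast P.one_le_B q
  have h : (1 : ℝ) ≤ (d : ℝ) * (P.B q : ℝ) := by nlinarith
  nlinarith

private theorem Par.H_succ (q : ℕ) : P.H (q + 1) =
    ((d : ℝ) * (P.B q : ℝ)) ^ 2 * (P.H q + 4) * (4 * P.H q + 12) := rfl

private theorem Par.Γ_succ (q : ℕ) : P.Γ (q + 1) = 4 * P.H q + 4 := rfl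

theorem Par.two_le_H (q : ℕ) : 2 ≤ P.H q := by
  induction q with
  | zero => exact P.hH
  | succ q ih =>
    rw [P.H_succ]
    have h1 := P.one_le_dB q
    have h2 : (0 : ℝ) ≤ (P.H q + 4) * (4 * P.H q + 12) := by nlinarith
    nlinarith [mul_le_mul_of_nonneg_right h1 h2]

theorem Par.H_mono {q q' : ℕ} (h : q ≤ q') : P.H q ≤ P.H q' := by
  refine monotone_nat_of_le_succ (f := P.H) (fun q => ?_) h
  rw [P.H_succ]
  have h1 := P.one_le_dB q
  have ih := P.two_le_H q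
  have h2 : (0 : ℝ) ≤ (P.H q + 4) * (4 * P.H q + 12) := by nlinarith
  nlinarith [mul_le_mul_of_nonneg_right h1 h2]

theorem Par.four_le_Γ (q : ℕ) : 4 ≤ P.Γ q := by
  cases q with
  | zero => exact le_refl (4 : ℝ)
  | succ q =>
    rw [P.Γ_succ]
    have := P.two_le_H q
    linarith

theorem Par.three_H_le_Γ (q : ℕ) : 3 * P.H q ≤ P.Γ (q + 1) := by
  rw [P.Γ_succ]
  have := P.two_le_H q
  linarith

theorem Par.H_mul_Γ_le (q : ℕ) : P.H q * (P.Γ (q + 1) + 1) ≤ P.H (q + 1) := by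
  rw [P.H_succ, P.Γ_succ]
  have h1 := P.one_le_dB q
  have ih := P.two_le_H q
  have h2 : (0 : ℝ) ≤ (P.H q + 4) * (4 * P.H q + 12) := by nlinarith
  nlinarith [mul_le_mul_of_nonneg_right h1 h2]

theorem Par.dB_H_mul_Γ_le (q : ℕ) :
    ((d : ℝ) * (P.B q : ℝ)) ^ 2 * (P.H q * (P.Γ (q + 1) + 1)) ≤ P.H (q + 1) := by
  rw [P.H_succ, P.Γ_succ, mul_assoc]
  have h1 := P.one_le_dB q
  have ih := P.two_le_H q
  refine mul_le_mul_of_nonneg_left ?_ (by linarith)
  nlinarith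

theorem Par.dB_Γ_le (q : ℕ) :
    ((d : ℝ) * (P.B q : ℝ)) ^ 2 * (2 * P.Γ (q + 1) + 4) ≤ P.H (q + 1) := by
  rw [P.H_succ, P.Γ_succ, mul_assoc]
  have h1 := P.one_le_dB q
  have ih := P.two_le_H q
  refine mul_le_mul_of_nonneg_left ?_ (by linarith)
  nlinarith

private theorem log_64_nonneg (hd : 1 ≤ d) : 0 ≤ Real.log (64 * d) := by
  have hd' : (1 : ℝ) ≤ (d : ℝ) := by exact_mod_cast hd
  exact Real.log_nonneg (by linarith)

private theorem log_2_le_log_64 (hd : 1 ≤ d) : Real.log (2 * d) ≤ Real.log (64 * d) := by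
  have hd' : (1 : ℝ) ≤ (d : ℝ) := by exact_mod_cast hd
  exact Real.log_le_log (by linarith) (by linarith)

theorem gam_le_D0 (hd : 1 ≤ d) : gam d ≤ D0 d := by
  have h1 := log_64_nonneg hd
  have h2 := log_2_le_log_64 hd
  unfold gam D0
  linarith

theorem log_two_le_gam (hd : 1 ≤ d) : Real.log 2 ≤ gam d := by
  have hd' : (1 : ℝ) ≤ (d : ℝ) := by exact_mod_cast hd
  have h : Real.log 2 ≤ Real.log (2 * d) := Real.log_le_log (by norm_num) (by linarith)
  unfold gam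
  linarith

private theorem gam_nonneg (hd : 1 ≤ d) : 0 ≤ gam d := by
  have h := log_two_le_gam hd
  have h2 : 0 ≤ Real.log 2 := Real.log_nonneg (by norm_num)
  linarith

theorem six_le_D0 (hd : 1 ≤ d) : 6 ≤ D0 d := by
  have h1 := log_64_nonneg hd
  unfold D0
  linarith

theorem two_log_le_D0 (hd : 1 ≤ d) : 2 * Real.log (2 * d) + 2 ≤ D0 d := by
  have h2 := log_2_le_log_64 hd
  unfold D0
  linarith

theorem exp_neg_D0 (hd : 1 ≤ d) {u : ℝ} (hu : D0 d ≤ u) : Real.exp (-u) ≤ 1 / (64 * d) := by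
  have hd' : (1 : ℝ) ≤ (d : ℝ) := by exact_mod_cast hd
  have h1 := log_64_nonneg hd
  have h2 : -u ≤ -Real.log (64 * d) := by
    unfold D0 at hu
    linarith
  calc Real.exp (-u) ≤ Real.exp (-Real.log (64 * d)) := Real.exp_le_exp.mpr h2
    _ = 1 / (64 * d) := by
      rw [Real.exp_neg, Real.exp_log (by linarith), one_div]

/-- `u e^{-u} ≤ e^{-u/2}` for all `u ≥ 0`. -/
private theorem mul_exp_neg_le {u : ℝ} (hu : 0 ≤ u) : u * Real.exp (-u) ≤ Real.exp (-(u / 2)) := by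
  have h1 : u / 4 + 1 ≤ Real.exp (u / 4) := Real.add_one_le_exp _
  have h2 : Real.exp (u / 2) = Real.exp (u / 4) * Real.exp (u / 4) := by
    rw [← Real.exp_add]; congr 1; ring
  have h3 : u ≤ Real.exp (u / 2) := by
    rw [h2]
    nlinarith [sq_nonneg (1 - u / 4), mul_self_nonneg (u / 4 - 1),
      mul_le_mul h1 h1 (by linarith) (Real.exp_pos _).le]
  have h4 : Real.exp (-u) = Real.exp (-(u / 2)) * Real.exp (-(u / 2)) := by
    rw [← Real.exp_add]; congr 1; ring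
  have h5 : Real.exp (u / 2) * Real.exp (-(u / 2)) = 1 := by
    rw [← Real.exp_add, add_neg_cancel, Real.exp_zero]
  rw [h4]
  have h6 := Real.exp_pos (-(u / 2))
  calc u * (Real.exp (-(u / 2)) * Real.exp (-(u / 2)))
      ≤ Real.exp (u / 2) * (Real.exp (-(u / 2)) * Real.exp (-(u / 2))) :=
        mul_le_mul_of_nonneg_right h3 (mul_nonneg h6.le h6.le)
    _ = (Real.exp (u / 2) * Real.exp (-(u / 2))) * Real.exp (-(u / 2)) := by ring
    _ = Real.exp (-(u / 2)) := by rw [h5, one_mul]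

/-- the basic smallness: `3/2 q (Γ+1) ω e^{g-Γω} ≤ (1/16) e^{g-2ω}` -/
theorem small_bound (hd : 1 ≤ d) {q : ℕ} (hq : q ≤ d) {G ω g : ℝ} (hG : 4 ≤ G)
    (hω : D0 d ≤ ω) :
    3 / 2 * (q : ℝ) * ((G + 1) * ω) * Real.exp (g - G * ω) ≤
      1 / 16 * Real.exp (g - 2 * ω) := by
  have hd' : (1 : ℝ) ≤ (d : ℝ) := by exact_mod_cast hd
  have hq' : (q : ℝ) ≤ (d : ℝ) := by exact_mod_cast hq
  have hq0 : (0 : ℝ) ≤ (q : ℝ) := Nat.cast_nonneg _
  have h6 := six_le_D0 hd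
  have hω6 : 6 ≤ ω := le_trans h6 hω
  set u : ℝ := (G - 2) * ω with hu
  have hu0 : 0 ≤ u := by
    rw [hu]; exact mul_nonneg (by linarith) (by linarith)
  have h1 : Real.exp (g - G * ω) = Real.exp (g - 2 * ω) * Real.exp (-u) := by
    rw [← Real.exp_add]; congr 1; rw [hu]; ring
  have h2 : (G + 1) * ω ≤ 5 / 2 * u := by
    rw [hu]
    nlinarith
  have h3 := mul_exp_neg_le hu0
  have h4 : Real.exp (-(u / 2)) ≤ Real.exp (-ω) := by
    apply Real.exp_le_exp.mpr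
    have : ω * 2 ≤ u := by rw [hu]; nlinarith
    linarith
  have h5 := exp_neg_D0 hd hω
  have h7 : (G + 1) * ω * Real.exp (-u) ≤ 5 / 2 * (1 / (64 * d)) := by
    calc (G + 1) * ω * Real.exp (-u) ≤ 5 / 2 * u * Real.exp (-u) :=
          mul_le_mul_of_nonneg_right h2 (Real.exp_pos _).le
      _ = 5 / 2 * (u * Real.exp (-u)) := by ring
      _ ≤ 5 / 2 * (1 / (64 * d)) := by
          have : u * Real.exp (-u) ≤ 1 / (64 * d) := le_trans h3 (le_trans h4 h5)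
          linarith
  have h8 : 3 / 2 * (q : ℝ) * ((G + 1) * ω * Real.exp (-u)) ≤ 1 / 16 := by
    have hc : (0 : ℝ) ≤ 5 / 2 * (1 / (64 * d)) := by positivity
    calc 3 / 2 * (q : ℝ) * ((G + 1) * ω * Real.exp (-u))
        ≤ 3 / 2 * (q : ℝ) * (5 / 2 * (1 / (64 * d))) :=
          mul_le_mul_of_nonneg_left h7 (by positivity)
      _ ≤ 3 / 2 * (d : ℝ) * (5 / 2 * (1 / (64 * d))) :=
          mul_le_mul_of_nonneg_right (by linarith) hc
      _ = 15 / 256 := by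
          field_simp
          norm_num
      _ ≤ 1 / 16 := by norm_num
  rw [h1]
  have h9 := Real.exp_pos (g - 2 * ω)
  calc 3 / 2 * (q : ℝ) * ((G + 1) * ω) * (Real.exp (g - 2 * ω) * Real.exp (-u))
      = (3 / 2 * (q : ℝ) * ((G + 1) * ω * Real.exp (-u))) * Real.exp (g - 2 * ω) := by ring
    _ ≤ 1 / 16 * Real.exp (g - 2 * ω) := mul_le_mul_of_nonneg_right h8 h9.le

/-- monotonicity and positivity of the block scales -/
theorem Par.le_sc {q : ℕ} {ω₁ : ℝ} (hω : D0 d ≤ ω₁) {b : ℕ} : ω₁ ≤ P.sc q ω₁ b := by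
  have h6 := six_le_D0 P.hd
  induction b with
  | zero => exact le_refl ω₁
  | succ b ih =>
    cases b with
    | zero => exact le_refl ω₁
    | succ b =>
      have h1 : P.sc q ω₁ (b + 1 + 1) = P.Γ (q - (b + 1)) * P.sc q ω₁ (b + 1) + gam d := rfl
      rw [h1]
      have h2 := P.four_le_Γ (q - (b + 1))
      have h3 := gam_nonneg P.hd
      nlinarith

theorem Par.sc_succ {q : ℕ} {ω₁ : ℝ} {b : ℕ} (hb : 1 ≤ b) :
    P.sc q ω₁ (b + 1) = P.Γ (q - b) * P.sc q ω₁ b + gam d := by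
  obtain ⟨c, rfl⟩ : ∃ c, b = c + 1 := ⟨b - 1, by omega⟩
  rfl

/-- `H (q - b) * sc b ≤ H (q - 1) * ω₁` for `1 ≤ b ≤ q` -/
theorem Par.H_sc_le {q : ℕ} {ω₁ : ℝ} (hω : D0 d ≤ ω₁) {b : ℕ} (hb : 1 ≤ b) (hbq : b ≤ q) :
    P.H (q - b) * P.sc q ω₁ b ≤ P.H (q - 1) * ω₁ := by
  induction b, hb using Nat.le_induction with
  | base => exact le_refl _
  | succ b hb ih =>
    have ih' := ih (by omega)
    refine le_trans ?_ ih'
    rw [P.sc_succ hb]
    obtain ⟨m, hm⟩ : ∃ m, q - b = m + 1 := ⟨q - b - 1, by omega⟩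
    have hm' : q - (b + 1) = m := by omega
    rw [hm', hm]
    have h1 := P.H_mul_Γ_le m
    have h2 := P.two_le_H m
    have h3 : ω₁ ≤ P.sc q ω₁ b := P.le_sc hω
    have h4 := gam_le_D0 P.hd
    have h6 := six_le_D0 P.hd
    have h5 : gam d ≤ P.sc q ω₁ b := by linarith
    calc P.H m * (P.Γ (m + 1) * P.sc q ω₁ b + gam d)
        ≤ P.H m * (P.Γ (m + 1) * P.sc q ω₁ b + P.sc q ω₁ b) :=
          mul_le_mul_of_nonneg_left (by linarith) (by linarith)
      _ = P.H m * (P.Γ (m + 1) + 1) * P.sc q ω₁ b := by ring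
      _ ≤ P.H (m + 1) * P.sc q ω₁ b :=
          mul_le_mul_of_nonneg_right h1 (by linarith)

end Const

end Crest.Agent.Perm
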