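import Mathlib
import Crest.Agent.Perm.Defs
import Crest.Agent.Perm.Const

/-!
S0122, module GapL (part 1): the walls of a context and their separation.
-/
set_option autoImplicit false

namespace Crest.Agent.Perm
open Finset

section GapL
variable {d : ℕ} (P : Par d)

/-- the walls of a context -/
def walls (P : Par d) (q : ℕ) (T : Finset (Fin d)) (n : Fin d → ℝ) : Set ℝ :=
  {w | ∃ (φ : Fin d → ℤ) (σ : ℤ), (∀ a, a ∉ T → φ a = 0) ∧ (∀ a, |φ a| ≤ (P.B (q - 1) : ℤ)) ∧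
    1 ≤ σ ∧ σ ≤ (d : ℤ) * (P.B (q - 1) : ℤ) ∧ w = -(dz φ n) / σ}

theorem walls_mem {q : ℕ} {T : Finset (Fin d)} {n : Fin d → ℝ} {i : Fin d} (hi : i ∈ T) :
    n i ∈ walls P q T n := by
  have hB : 1 ≤ P.B (q - 1) := P.one_le_B (q - 1)
  have hBZ : (1 : ℤ) ≤ (P.B (q - 1) : ℤ) := by exact_mod_cast hB
  have hdZ : (1 : ℤ) ≤ (d : ℤ) := by exact_mod_cast P.hd
  refine ⟨fun a => if a = i then -1 else 0, 1, ?_, ?_, le_refl _, ?_, ?_⟩
  · intro a ha
    have : a ≠ i := fun h => ha (h ▸ hi)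
    simp [this]
  · intro a
    by_cases h : a = i
    · simp only [h, if_true, abs_neg, abs_one]; exact hBZ
    · simp only [h, if_false, abs_zero]; omega
  · nlinarith
  · simp [dz]

theorem walls_sep {q : ℕ} (hq : 1 ≤ q) {T : Finset (Fin d)} {n : Fin d → ℝ} {ω : ℝ}
    (hω : D0 d ≤ ω) (hgap : Gap T (P.B q) n (P.H q * ω)) :
    ∀ w ∈ walls P q T n, ∀ w' ∈ walls P q T n, w ≠ w' →
      2 * (P.Γ q * ω) + 4 * ω ≤ |w - w'| ∧ P.H (q - 1) * (P.Γ q * ω + gam d) ≤ |w - w'| := by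
  obtain ⟨q, rfl⟩ : ∃ q', q = q' + 1 := ⟨q - 1, by omega⟩
  simp only [Nat.add_sub_cancel]
  rintro w ⟨φ, σ, hφT, hφB, hσ1, hσ2, rfl⟩ w' ⟨φ', σ', hφT', hφB', hσ1', hσ2', rfl⟩ hne
  simp only [Nat.add_sub_cancel] at *
  set b : ℕ := P.B q with hbdef
  have hb1 : 1 ≤ b := P.one_le_B q
  have hbZ : (1 : ℤ) ≤ (b : ℤ) := by exact_mod_cast hb1
  have hdZ : (1 : ℤ) ≤ (d : ℤ) := by exact_mod_cast P.hd
  have hBs : P.B (q + 1) = 2 * d * b ^ 2 := rfl
  -- the combined form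
  set ψ : Fin d → ℤ := fun a => σ * φ' a - σ' * φ a with hψ
  have hψT : ∀ a, a ∉ T → ψ a = 0 := by
    intro a ha; simp [hψ, hφT a ha, hφT' a ha]
  have hψB : ∀ a, |ψ a| ≤ (P.B (q + 1) : ℤ) := by
    intro a
    rw [hBs]
    push_cast
    have h1 : |σ * φ' a| ≤ (d : ℤ) * b * b := by
      rw [abs_mul, abs_of_pos (by omega : 0 < σ)]
      exact mul_le_mul hσ2 (hφB' a) (abs_nonneg _) (by positivity)
    have h2 : |σ' * φ a| ≤ (d : ℤ) * b * b := by
      rw [abs_mul, abs_of_pos (by omega : 0 < σ')]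
      exact mul_le_mul hσ2' (hφB a) (abs_nonneg _) (by positivity)
    calc |ψ a| ≤ |σ * φ' a| + |σ' * φ a| := abs_sub _ _
      _ ≤ 2 * d * b ^ 2 := by nlinarith
  have hσR : (0 : ℝ) < (σ : ℝ) := by exact_mod_cast (by omega : 0 < σ)
  have hσR' : (0 : ℝ) < (σ' : ℝ) := by exact_mod_cast (by omega : 0 < σ')
  have hdzψ : dz ψ n = σ * dz φ' n - σ' * dz φ n := by
    simp only [dz, hψ, Finset.mul_sum, ← Finset.sum_sub_distrib]
    refine Finset.sum_congr rfl fun a _ => ?_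
    push_cast; ring
  have hdiff : -(dz φ n) / σ - -(dz φ' n) / σ' = dz ψ n / (σ * σ') := by
    rw [hdzψ]; field_simp; ring
  have hne0 : dz ψ n ≠ 0 := by
    intro h0
    apply hne
    have : -(dz φ n) / σ - -(dz φ' n) / σ' = 0 := by rw [hdiff, h0]; simp
    linarith
  have hbig : P.H (q + 1) * ω ≤ |dz ψ n| := by
    rcases hgap ψ hψT hψB with h | h
    · exact absurd h hne0
    · exact h
  have habs : |-(dz φ n) / σ - -(dz φ' n) / σ'| = |dz ψ n| / (σ * σ') := by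
    rw [hdiff, abs_div, abs_of_pos (mul_pos hσR hσR')]
  rw [habs]
  have hdR : (1 : ℝ) ≤ (d : ℝ) := by exact_mod_cast P.hd
  have hbR : (1 : ℝ) ≤ (b : ℝ) := by exact_mod_cast hb1
  have hσ2R : (σ : ℝ) ≤ (d : ℝ) * b := by exact_mod_cast hσ2
  have hσ2R' : (σ' : ℝ) ≤ (d : ℝ) * b := by exact_mod_cast hσ2'
  have hprod : (σ : ℝ) * σ' ≤ ((d : ℝ) * b) ^ 2 := by
    rw [pow_two]; exact mul_le_mul hσ2R hσ2R' hσR'.le (by positivity)
  have hD0 : 6 ≤ ω := le_trans (six_le_D0 P.hd) hω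
  have hgam : gam d ≤ ω := le_trans (gam_le_D0 P.hd) hω
  have hpos : (0 : ℝ) < σ * σ' := mul_pos hσR hσR'
  constructor
  · rw [le_div_iff₀ hpos]
    have h1 := P.dB_Γ_le q
    have hΓ := P.four_le_Γ (q + 1)
    calc (2 * (P.Γ (q + 1) * ω) + 4 * ω) * (σ * σ')
        ≤ (2 * (P.Γ (q + 1) * ω) + 4 * ω) * ((d : ℝ) * b) ^ 2 := by
          apply mul_le_mul_of_nonneg_left hprod; nlinarith
      _ = (((d : ℝ) * b) ^ 2 * (2 * P.Γ (q + 1) + 4)) * ω := by ring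
      _ ≤ P.H (q + 1) * ω := mul_le_mul_of_nonneg_right h1 (by linarith)
      _ ≤ |dz ψ n| := hbig
  · rw [le_div_iff₀ hpos]
    have h1 := P.dB_H_mul_Γ_le q
    have hΓ := P.four_le_Γ (q + 1)
    have hH := P.two_le_H q
    have h0 : 0 ≤ P.H q * (P.Γ (q + 1) * ω + gam d) := by
      have := log_two_le_gam P.hd
      have h2 := Real.log_pos (by norm_num : (1 : ℝ) < 2)
      apply mul_nonneg (by linarith)
      nlinarith
    calc (P.H q * (P.Γ (q + 1) * ω + gam d)) * (σ * σ')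
        ≤ (P.H q * (P.Γ (q + 1) * ω + gam d)) * ((d : ℝ) * b) ^ 2 :=
          mul_le_mul_of_nonneg_left hprod h0
      _ ≤ (P.H q * (P.Γ (q + 1) * ω + ω)) * ((d : ℝ) * b) ^ 2 := by
          apply mul_le_mul_of_nonneg_right _ (by positivity)
          apply mul_le_mul_of_nonneg_left _ (by linarith)
          linarith
      _ = (((d : ℝ) * b) ^ 2 * (P.H q * (P.Γ (q + 1) + 1))) * ω := by ring
      _ ≤ P.H (q + 1) * ω := mul_le_mul_of_nonneg_right h1 (by linarith)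
      _ ≤ |dz ψ n| := hbig

end GapL

end Crest.Agent.Perm
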