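import Mathlib
import Crest.Agent.Perm.Defs
import Crest.Agent.Perm.Const
import Crest.Agent.Perm.GapL

/-!
S0122, module GapV: the gap condition at the levels, and the gap condition of a child context.
-/
set_option autoImplicit false

namespace Crest.Agent.Perm
open Finset

section GapV
variable {d : ℕ} (P : Par d)

/-- value of a form supported on `T ∪ B` at a vector whose `B`-coordinates were stopped at `g` -/
theorem dz_stop {T B : Finset (Fin d)} (hTB : Disjoint T B) (φ : Fin d → ℤ)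
    (hφ : ∀ a, a ∉ T ∪ B → φ a = 0) (n : Fin d → ℝ) (g : ℝ) :
    dz φ (stop n B g) =
      dz (fun a => if a ∈ T then φ a else 0) n + ((∑ a ∈ B, φ a : ℤ) : ℝ) * g := by
  have h1 : ((∑ a ∈ B, φ a : ℤ) : ℝ) = ∑ a, (if a ∈ B then (φ a : ℝ) else 0) := by
    rw [Finset.sum_ite_mem, Finset.univ_inter]
    push_cast
    rfl
  rw [h1, Finset.sum_mul]
  unfold dz
  rw [← Finset.sum_add_distrib]
  refine Finset.sum_congr rfl fun a _ => ?_
  by_cases hB : a ∈ B
  · have hT : a ∉ T := fun h => (Finset.disjoint_left.mp hTB h) hB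
    simp [stop, hB, hT]
  · by_cases hT : a ∈ T
    · simp [stop, hB, hT]
    · have : φ a = 0 := hφ a (by simp [hT, hB])
      simp [this, hB]

theorem abs_sum_le_dB {B : Finset (Fin d)} {φ : Fin d → ℤ} {b : ℕ}
    (hφ : ∀ a, |φ a| ≤ (b : ℤ)) : |∑ a ∈ B, φ a| ≤ (d : ℤ) * b := by
  calc |∑ a ∈ B, φ a| ≤ ∑ a ∈ B, |φ a| := Finset.abs_sum_le_sum_abs _ _
    _ ≤ ∑ a ∈ B, (b : ℤ) := Finset.sum_le_sum fun a _ => hφ a
    _ = (B.card : ℤ) * b := by simp
    _ ≤ (d : ℤ) * b := by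
        have : B.card ≤ d := by simpa using Finset.card_le_univ B
        exact mul_le_mul_of_nonneg_right (by exact_mod_cast this) (by positivity)

theorem dz_neg (φ : Fin d → ℤ) (n : Fin d → ℝ) : dz (fun a => -φ a) n = -dz φ n := by
  unfold dz
  rw [← Finset.sum_neg_distrib]
  refine Finset.sum_congr rfl fun a _ => ?_
  push_cast; ring

theorem Gap.mono {T : Finset (Fin d)} {b b' : ℕ} {n : Fin d → ℝ} {h h' : ℝ}
    (hg : Gap T b n h) (hb : b' ≤ b) (hh : h' ≤ h) : Gap T b' n h' := by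
  intro φ hφT hφB
  rcases hg φ hφT (fun a => le_trans (hφB a) (by exact_mod_cast hb)) with h0 | h1
  · exact Or.inl h0
  · exact Or.inr (le_trans hh h1)

theorem vgap_core {q : ℕ} (hq : 1 ≤ q) {T A : Finset (Fin d)} {n : Fin d → ℝ} {ω ω₁ g : ℝ}
    (hTA : Disjoint T A) (hω₁ : 0 ≤ ω₁) (hgap : Gap T (P.B q) n (P.H q * ω))
    (h0 : P.H (q - 1) * ω₁ ≤ P.H q * ω)
    (hw : ∀ w ∈ walls P q T n, g = w ∨ P.H (q - 1) * ω₁ ≤ |g - w|) :
    VGap P q T A n g ω₁ := by
  intro B hBA _ 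
  have hTB : Disjoint T B := Finset.disjoint_of_subset_right hBA hTA
  -- the case of positive `σ`
  have key : ∀ φ : Fin d → ℤ, (∀ a, a ∉ T ∪ B → φ a = 0) → (∀ a, |φ a| ≤ (P.B (q - 1) : ℤ)) →
      0 < ∑ a ∈ B, φ a →
      dz φ (stop n B g) = 0 ∨ P.H (q - 1) * ω₁ ≤ |dz φ (stop n B g)| := by
    intro φ hφT hφB hσ
    set σ : ℤ := ∑ a ∈ B, φ a with hσdef
    have hσle : σ ≤ (d : ℤ) * (P.B (q - 1) : ℤ) :=
      le_trans (le_abs_self _) (abs_sum_le_dB hφB)
    set ψ : Fin d → ℤ := fun a => if a ∈ T then φ a else 0 with hψ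
    have hψT : ∀ a, a ∉ T → ψ a = 0 := fun a ha => by simp [hψ, ha]
    have hψB : ∀ a, |ψ a| ≤ (P.B (q - 1) : ℤ) := by
      intro a
      by_cases ha : a ∈ T
      · simpa [hψ, ha] using hφB a
      · simp [hψ, ha]
    have hσR : (1 : ℝ) ≤ (σ : ℝ) := by exact_mod_cast hσ
    have hval : dz φ (stop n B g) = σ * (g - -(dz ψ n) / σ) := by
      rw [dz_stop hTB φ hφT n g]
      have : (σ : ℝ) ≠ 0 := by linarith
      field_simp
      ring
    have hmem : -(dz ψ n) / σ ∈ walls P q T n :=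
      ⟨ψ, σ, hψT, hψB, by omega, hσle, rfl⟩
    rcases hw _ hmem with h | h
    · left
      rw [hval, ← h]; simp
    · right
      rw [hval, abs_mul, abs_of_pos (by linarith)]
      calc P.H (q - 1) * ω₁ ≤ |g - -(dz ψ n) / σ| := h
        _ ≤ σ * |g - -(dz ψ n) / σ| := le_mul_of_one_le_left (abs_nonneg _) hσR
  intro φ hφT hφB
  rcases lt_trichotomy (∑ a ∈ B, φ a) 0 with hσ | hσ | hσ
  · have h1 := key (fun a => -φ a) (fun a ha => by simp [hφT a ha])
      (fun a => by simpa using hφB a) (by rw [Finset.sum_neg_distrib]; omega)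
    rw [dz_neg] at h1
    simpa using h1
  · rw [dz_stop hTB φ hφT n g, hσ]
    simp only [Int.cast_zero, zero_mul, add_zero]
    have h2 := (hgap.mono (P.B_mono (Nat.sub_le q 1)) h0) (fun a => if a ∈ T then φ a else 0)
      (fun a ha => by simp [ha])
      (fun a => by
        by_cases ha : a ∈ T
        · simpa [ha] using hφB a
        · simp [ha])
    exact h2
  · exact key φ hφT hφB hσ

/-- level exactly at a wall -/
theorem vgap_wall {q : ℕ} (hq : 1 ≤ q) {T A : Finset (Fin d)} {n : Fin d → ℝ} {ω g : ℝ}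
    (hTA : Disjoint T A) (hω : D0 d ≤ ω) (hgap : Gap T (P.B q) n (P.H q * ω))
    (hg : g ∈ walls P q T n) : VGap P q T A n g (P.Γ q * ω + gam d) := by
  have h6 := six_le_D0 P.hd
  have hgam := gam_le_D0 P.hd
  have hgam0 := log_two_le_gam P.hd
  have hl2 := Real.log_pos (by norm_num : (1 : ℝ) < 2)
  have hΓ := P.four_le_Γ q
  refine vgap_core P hq hTA (by nlinarith) hgap ?_ ?_
  · obtain ⟨m, rfl⟩ : ∃ m, q = m + 1 := ⟨q - 1, by omega⟩
    simp only [Nat.add_sub_cancel]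
    have h1 := P.H_mul_Γ_le m
    have h2 := P.two_le_H m
    calc P.H m * (P.Γ (m + 1) * ω + gam d)
        ≤ P.H m * (P.Γ (m + 1) * ω + ω) :=
          mul_le_mul_of_nonneg_left (by linarith) (by linarith)
      _ = P.H m * (P.Γ (m + 1) + 1) * ω := by ring
      _ ≤ P.H (m + 1) * ω := mul_le_mul_of_nonneg_right h1 (by linarith)
  · intro w hw
    by_cases hne : g = w
    · exact Or.inl hne
    · exact Or.inr (walls_sep P hq hω hgap g hg w hw hne).2

/-- level far from all walls -/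
theorem vgap_regular {q : ℕ} (hq : 1 ≤ q) {T A : Finset (Fin d)} {n : Fin d → ℝ} {ω g : ℝ}
    (hTA : Disjoint T A) (hω : D0 d ≤ ω) (hgap : Gap T (P.B q) n (P.H q * ω))
    (hg : ∀ w ∈ walls P q T n, P.Γ q * ω ≤ |g - w|) : VGap P q T A n g (2 * ω + gam d) := by
  have h6 := six_le_D0 P.hd
  have hgam := gam_le_D0 P.hd
  have hgam0 := log_two_le_gam P.hd
  have hl2 := Real.log_pos (by norm_num : (1 : ℝ) < 2)
  have hΓ := P.four_le_Γ q
  have hbase : P.H (q - 1) * (2 * ω + gam d) ≤ P.Γ q * ω := by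
    obtain ⟨m, rfl⟩ : ∃ m, q = m + 1 := ⟨q - 1, by omega⟩
    simp only [Nat.add_sub_cancel]
    have h1 := P.three_H_le_Γ m
    have h2 := P.two_le_H m
    calc P.H m * (2 * ω + gam d) ≤ P.H m * (3 * ω) :=
          mul_le_mul_of_nonneg_left (by linarith) (by linarith)
      _ = 3 * P.H m * ω := by ring
      _ ≤ P.Γ (m + 1) * ω := mul_le_mul_of_nonneg_right h1 (by linarith)
  refine vgap_core P hq hTA (by linarith) hgap ?_ ?_
  · refine le_trans hbase ?_
    obtain ⟨m, rfl⟩ : ∃ m, q = m + 1 := ⟨q - 1, by omega⟩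
    have h1 := P.H_mul_Γ_le m
    have h2 := P.two_le_H m
    have h3 : P.Γ (m + 1) ≤ P.H (m + 1) := by nlinarith
    exact mul_le_mul_of_nonneg_right h3 (by linarith)
  · intro w hw
    exact Or.inr (le_trans hbase (hg w hw))

/-- no stopped coordinates yet -/
theorem vgap_top {q : ℕ} {A : Finset (Fin d)} {n : Fin d → ℝ} {ω₁ g : ℝ}
    (h : P.H (q - 1) * ω₁ ≤ |g|) : VGap P q ∅ A n g ω₁ := by
  intro B _ _ φ hφT _
  rw [dz_stop (Finset.disjoint_empty_left B) φ hφT n g]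
  have h0 : dz (fun a => if a ∈ (∅ : Finset (Fin d)) then φ a else 0) n = 0 := by
    simp [dz]
  rw [h0, zero_add]
  by_cases hσ : ∑ a ∈ B, φ a = 0
  · left; rw [hσ]; simp
  · right
    rw [abs_mul]
    have h1 : (1 : ℝ) ≤ |((∑ a ∈ B, φ a : ℤ) : ℝ)| := by
      have : (1 : ℤ) ≤ |∑ a ∈ B, φ a| := Int.one_le_abs hσ
      exact_mod_cast this
    exact le_trans h (le_mul_of_one_le_left (abs_nonneg _) h1)

/-- the gap condition of the child context in which the block `B` has stopped at `g` -/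
theorem gap_child {q : ℕ} {T A B : Finset (Fin d)} {n : Fin d → ℝ} {ω₁ g : ℝ}
    (hA : A.card = q) (hω : D0 d ≤ ω₁) (hv : VGap P q T A n g ω₁) (hB : B ⊆ A)
    (hBne : B.Nonempty) :
    Gap (T ∪ B) (P.B (q - B.card)) (stop n B g) (P.H (q - B.card) * P.sc q ω₁ B.card) := by
  have hb1 : 1 ≤ B.card := Finset.card_pos.mpr hBne
  have hbq : B.card ≤ q := hA ▸ Finset.card_le_card hB
  exact (hv B hB hBne).mono (P.B_mono (by omega)) (P.H_sc_le hω hb1 hbq)

end GapV

end Crest.Agent.Perm
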