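import Mathlib
set_option autoImplicit false

namespace Crest.Agent.Perm

open Classical in
/-- one step of the grid: next level and threshold -/
noncomputable def gstep (W : Set ℝ) (ρ τ g : ℝ) : ℝ × ℝ :=
  if g ∈ W then (g - ρ - τ, g - ρ)
  else if h : ∃ w ∈ W, g - ρ - 2 * τ < w ∧ w < g then (h.choose, h.choose + ρ)
  else (g - τ, g - τ / 2)

theorem gstep_spec (W : Set ℝ) (ρ τ : ℝ) (hτ : 0 < τ) (hτρ : τ ≤ ρ)
    (hsep : ∀ w ∈ W, ∀ w' ∈ W, w ≠ w' → 2 * ρ + 4 * τ ≤ |w - w'|) (x : ℝ)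
    (hx : x ∈ W ∨ ∀ w ∈ W, ρ + τ ≤ |x - w|) :
    ((gstep W ρ τ x).1 ∈ W ∨ ∀ w ∈ W, ρ + τ ≤ |(gstep W ρ τ x).1 - w|) ∧
    τ ≤ x - (gstep W ρ τ x).1 ∧ x - (gstep W ρ τ x).1 ≤ ρ + 2 * τ ∧
    (gstep W ρ τ x).2 ≤ x - τ / 2 ∧ (gstep W ρ τ x).1 + τ / 2 ≤ (gstep W ρ τ x).2 ∧
    (x ∈ W → x - (gstep W ρ τ x).2 ≤ ρ) ∧ (x ∉ W → x - (gstep W ρ τ x).2 ≤ 2 * τ) ∧
    ((gstep W ρ τ x).1 ∈ W → (gstep W ρ τ x).2 - (gstep W ρ τ x).1 ≤ ρ) ∧
    ((gstep W ρ τ x).1 ∉ W → (gstep W ρ τ x).2 - (gstep W ρ τ x).1 ≤ τ) := by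
  by_cases hxW : x ∈ W
  · have h1 : gstep W ρ τ x = (x - ρ - τ, x - ρ) := by simp [gstep, hxW]
    have hreg : ∀ w ∈ W, ρ + τ ≤ |x - ρ - τ - w| := by
      intro w hw
      by_cases hwx : w = x
      · subst hwx
        rw [abs_of_neg (by linarith)]; linarith
      · have := hsep w hw x hxW hwx
        rcases lt_or_ge w x with h | h
        · rw [abs_of_neg (by linarith)] at this
          rw [le_abs]; left; linarith
        · rw [abs_of_nonneg (by linarith)] at this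
          rw [le_abs]; right; linarith
    rw [h1]
    refine ⟨Or.inr hreg, ?_, ?_, ?_, ?_, ?_, ?_, ?_, ?_⟩ <;> simp only
    · linarith
    · linarith
    · linarith
    · linarith
    · intro _; linarith
    · intro h; exact absurd hxW h
    · intro h
      have := hreg _ h
      simp at this; linarith
    · intro _; linarith
  · have hreg : ∀ w ∈ W, ρ + τ ≤ |x - w| := by
      rcases hx with h | h
      · exact absurd h hxW
      · exact h
    by_cases hw : ∃ w ∈ W, x - ρ - 2 * τ < w ∧ w < x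
    · have h1 : gstep W ρ τ x = (hw.choose, hw.choose + ρ) := by
        simp only [gstep, hxW, if_false]
        rw [dif_pos hw]
      obtain ⟨hwW, hw1, hw2⟩ := hw.choose_spec
      have h3 := hreg _ hwW
      rw [abs_of_pos (by linarith)] at h3
      rw [h1]
      refine ⟨Or.inl hwW, ?_, ?_, ?_, ?_, ?_, ?_, ?_, ?_⟩ <;> simp only
      · linarith
      · linarith
      · linarith
      · linarith
      · intro h; exact absurd h hxW
      · intro h; linarith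
      · intro _; linarith
      · intro h; exact absurd hwW h
    · have h1 : gstep W ρ τ x = (x - τ, x - τ / 2) := by
        simp only [gstep, hxW, if_false]
        rw [dif_neg hw]
      have hreg2 : ∀ w ∈ W, ρ + τ ≤ |x - τ - w| := by
        intro w hwW
        have h3 := hreg _ hwW
        rcases lt_or_ge w x with h | h
        · have h4 : w ≤ x - ρ - 2 * τ := by
            by_contra h5
            exact hw ⟨w, hwW, by linarith [not_le.mp h5], h⟩
          rw [le_abs]; left; linarith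
        · rw [abs_of_nonpos (by linarith)] at h3
          rw [le_abs]; right; linarith
      rw [h1]
      refine ⟨Or.inr hreg2, ?_, ?_, ?_, ?_, ?_, ?_, ?_, ?_⟩ <;> simp only
      · linarith
      · linarith
      · linarith
      · linarith
      · intro h; exact absurd h hxW
      · intro h; linarith
      · intro h
        have := hreg2 _ h
        simp at this; linarith
      · intro _; linarith

theorem grid_exists (W : Set ℝ) (ℓ ρ τ : ℝ) (hτ : 0 < τ) (hτρ : τ ≤ ρ) (hℓ : ℓ ∈ W)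
    (hsep : ∀ w ∈ W, ∀ w' ∈ W, w ≠ w' → 2 * ρ + 4 * τ ≤ |w - w'|) :
    ∃ g β : ℕ → ℝ, g 0 = ℓ ∧ β 0 = ℓ - ρ ∧ g 1 = ℓ - ρ - τ ∧
      (∀ i, τ ≤ g i - g (i + 1)) ∧ (∀ i, g i - g (i + 1) ≤ ρ + 2 * τ) ∧
      (∀ i, β i ≤ g i - τ / 2) ∧ (∀ i, g (i + 1) + τ / 2 ≤ β i) ∧
      (∀ i, (g i ∈ W ∧ g i - β i ≤ ρ ∧ (1 ≤ i → β (i - 1) - g i ≤ ρ)) ∨
        ((∀ w ∈ W, ρ ≤ |g i - w|) ∧ g i - β i ≤ 2 * τ ∧ (1 ≤ i → β (i - 1) - g i ≤ τ))) := by
  set g : ℕ → ℝ := fun i => (fun x => (gstep W ρ τ x).1)^[i] ℓ with hg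
  set β : ℕ → ℝ := fun i => (gstep W ρ τ (g i)).2 with hβ
  have hsucc : ∀ i, g (i + 1) = (gstep W ρ τ (g i)).1 := by
    intro i
    simp only [hg, Function.iterate_succ_apply']
  have hinv : ∀ i, g i ∈ W ∨ ∀ w ∈ W, ρ + τ ≤ |g i - w| := by
    intro i
    induction i with
    | zero => left; simpa [hg] using hℓ
    | succ i ih =>
      rw [hsucc]
      exact (gstep_spec W ρ τ hτ hτρ hsep (g i) ih).1
  have hs : ∀ i, _ := fun i => gstep_spec W ρ τ hτ hτρ hsep (g i) (hinv i)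
  have hg0 : g 0 = ℓ := rfl
  have hst0 : gstep W ρ τ ℓ = (ℓ - ρ - τ, ℓ - ρ) := by simp [gstep, hℓ]
  refine ⟨g, β, hg0, ?_, ?_, ?_, ?_, ?_, ?_, ?_⟩
  · simp only [hβ, hg0, hst0]
  · rw [show (1 : ℕ) = 0 + 1 from rfl, hsucc, hg0, hst0]
  · intro i; rw [hsucc]; exact (hs i).2.1
  · intro i; rw [hsucc]; exact (hs i).2.2.1
  · intro i; exact (hs i).2.2.2.1
  · intro i; rw [hsucc]; exact (hs i).2.2.2.2.1
  · intro i
    by_cases hiW : g i ∈ W
    · left
      refine ⟨hiW, (hs i).2.2.2.2.2.1 hiW, ?_⟩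
      intro hi
      obtain ⟨j, rfl⟩ : ∃ j, i = j + 1 := ⟨i - 1, by omega⟩
      have h := (hs j).2.2.2.2.2.2.2.1
      rw [← hsucc] at h
      simpa using h hiW
    · right
      have hr : ∀ w ∈ W, ρ + τ ≤ |g i - w| := by
        rcases hinv i with h | h
        · exact absurd h hiW
        · exact h
      refine ⟨fun w hw => by linarith [hr w hw], (hs i).2.2.2.2.2.2.1 hiW, ?_⟩
      intro hi
      obtain ⟨j, rfl⟩ : ∃ j, i = j + 1 := ⟨i - 1, by omega⟩
      have h := (hs j).2.2.2.2.2.2.2.2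
      rw [← hsucc] at h
      simpa using h hiW

end Crest.Agent.Perm
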