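import Mathlib
import Crest.Agent.Perm.Defs
import Crest.Agent.Perm.Const
import Crest.Agent.Perm.GapL
import Crest.Agent.Perm.GapV

/-!
S0122, module Level: the level lemma.
-/
set_option autoImplicit false

namespace Crest.Agent.Perm
open Finset

/-- the core inequality of the lower bound in the level lemma -/
private theorem level_core {q Δ S r g ω β x : ℝ} (hq : 1 ≤ q) (hΔ : 1 ≤ Δ)
    (hS : S ≤ 1 / 16 * Real.exp (g - 2 * ω)) (hr : r ≤ 1 / 16 * Real.exp (g - 2 * ω))
    (hβ : g - 2 * ω ≤ β) (h : q * Δ * Real.exp β ≤ Δ * x + Δ * S + r) :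
    β - Real.log 2 ≤ Real.log x := by
  have he : Real.exp (g - 2 * ω) ≤ Real.exp β := Real.exp_le_exp.mpr hβ
  have hep : 0 < Real.exp β := Real.exp_pos β
  have hΔ0 : 0 < Δ := by linarith
  have h1 : Δ * S ≤ Δ * (1 / 16 * Real.exp β) :=
    mul_le_mul_of_nonneg_left (by linarith) hΔ0.le
  have h2 : r ≤ Δ * (1 / 16 * Real.exp β) := by
    have : 1 * (1 / 16 * Real.exp β) ≤ Δ * (1 / 16 * Real.exp β) :=
      mul_le_mul_of_nonneg_right hΔ (by positivity)
    linarith
  have h3 : Δ * Real.exp β ≤ q * Δ * Real.exp β := by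
    have : 1 * (Δ * Real.exp β) ≤ q * (Δ * Real.exp β) :=
      mul_le_mul_of_nonneg_right hq (by positivity)
    linarith
  have h4 : Δ * (1 / 2 * Real.exp β) ≤ Δ * x := by nlinarith
  have h5 : 1 / 2 * Real.exp β ≤ x := le_of_mul_le_mul_left h4 hΔ0
  have h6 : Real.log (1 / 2 * Real.exp β) ≤ Real.log x :=
    Real.log_le_log (by positivity) h5
  rw [Real.log_mul (by norm_num) (Real.exp_ne_zero _), Real.log_exp] at h6
  have h7 : Real.log (1 / 2) = -Real.log 2 := by
    rw [one_div, Real.log_inv]
  linarith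

theorem level_lemma {d : ℕ} (P : Par d) (q : ℕ) (hq : 1 ≤ q)
    (IH : ∀ q' < q, ∀ (T A : Finset (Fin d)) (n : Fin d → ℝ) (ℓ ω : ℝ),
      Ctx P q' T A n ℓ ω → ∃ 𝒜, Good P q' T A n ℓ ω 𝒜)
    (T A : Finset (Fin d)) (n : Fin d → ℝ) (g ω₁ : ℝ) (hA : A.card = q) (hTA : Disjoint T A)
    (hω : D0 d ≤ ω₁) (hv : VGap P q T A n g ω₁) :
    ∃ 𝓛, LevelGood P T A n g ω₁ 𝓛 := by
  classical
  have hd := P.hd
  have hcard : ∀ B : Finset (Fin d), B ⊆ A → B.card ≤ q := fun B hB => hA ▸ card_le_card hB
  have hqd : q ≤ d := by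
    rw [← hA]; exact (card_le_univ A).trans (by simp)
  have hω6 : 6 ≤ ω₁ := (six_le_D0 hd).trans hω
  have hchild : ∀ B : Finset (Fin d), B ⊆ A → B.Nonempty →
      ∃ 𝒜, Good P (q - B.card) (T ∪ B) (A \ B) (stop n B g) g (P.sc q ω₁ B.card) 𝒜 := by
    intro B hB hBne
    have hBc : 0 < B.card := hBne.card_pos
    refine IH (q - B.card) (by omega) _ _ _ _ _ ⟨?_, ?_, ?_, ?_, ?_⟩
    · rw [card_sdiff_of_subset hB, hA]
    · rw [disjoint_union_left]
      exact ⟨hTA.mono_right sdiff_subset, disjoint_sdiff⟩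
    · exact hω.trans (P.le_sc hω)
    · obtain ⟨i, hi⟩ := hBne
      exact ⟨i, mem_union_right _ hi, by simp [stop, hi]⟩
    · exact gap_child P hA hω hv hB hBne
  choose! 𝒜 h𝒜 using hchild
  -- sums over `A` split
  have hsplit : ∀ B : Finset (Fin d), B ⊆ A → ∀ f : Fin d → ℝ,
      ∑ a ∈ A, f a = ∑ a ∈ A \ B, f a + ∑ a ∈ B, f a := by
    intro B hB f
    rw [sum_sdiff hB]
  -- the values on `B`
  have hon : ∀ B : Finset (Fin d), B ⊆ A → B.Nonempty → ∀ p ∈ 𝒜 B, ∀ a ∈ B, p.1 a = g := by
    intro B hB hBne p hp a ha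
    rw [(h𝒜 B hB hBne).off p hp a (by simp [ha])]
    simp [stop, ha]
  have hsc : ∀ b : ℕ, ω₁ ≤ P.sc q ω₁ b := fun b => P.le_sc hω
  have hGpos : ∀ b : ℕ, ∀ k : ℕ, 1 ≤ (P.Γ k + 1) * P.sc q ω₁ b := by
    intro b k
    have h1 := P.four_le_Γ k
    have h2 := hsc b
    nlinarith
  have hle : ∀ B : Finset (Fin d), B ⊆ A → B.Nonempty → ∀ p ∈ 𝒜 B, ∀ a ∈ A, p.1 a ≤ g := by
    intro B hB hBne p hp a ha
    by_cases haB : a ∈ B
    · exact (hon B hB hBne p hp a haB).le
    · have := (h𝒜 B hB hBne).le p hp a (by simp [ha, haB])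
      have h1 := hGpos B.card (q - B.card)
      linarith
  have hrew : ∀ B : Finset (Fin d), B ⊆ A → B.Nonempty → ∀ p ∈ 𝒜 B,
      p.2 ≤ 1 / 16 * Real.exp (g - 2 * P.sc q ω₁ B.card) := by
    intro B hB hBne p hp
    refine ((h𝒜 B hB hBne).rew_le p hp).trans ?_
    exact small_bound hd (by omega) (P.four_le_Γ _) (hω.trans (hsc _))
  have hall : (stop n A g, (0 : ℝ)) ∈ 𝒜 A := by
    have hAne : A.Nonempty := card_pos.mp (by omega)
    have := (h𝒜 A (Subset.refl A) hAne).first
    simp only [hA, sdiff_self, Nat.sub_self, Nat.cast_zero, zero_mul] at this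
    have h2 : stop (stop n A g) (⊥ : Finset (Fin d)) (g - (P.Γ 0 + 1) * P.sc q ω₁ q) =
        stop n A g := by
      funext a; simp [stop]
    rwa [h2] at this
  have hAne : A.Nonempty := card_pos.mp (by omega)
  refine ⟨{p | ∃ B, B ⊆ A ∧ B.Nonempty ∧ p ∈ 𝒜 B}, ?_, ?_, ?_, ?_, ?_, ?_, ?_, ?_⟩
  · -- off
    rintro p ⟨B, hB, hBne, hp⟩ a ha
    rw [(h𝒜 B hB hBne).off p hp a (by simp [ha])]
    have : a ∉ B := fun h => ha (hB h)
    simp [stop, this]
  · -- le
    rintro p ⟨B, hB, hBne, hp⟩ a ha
    exact hle B hB hBne p hp a ha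
  · -- ex
    rintro p ⟨B, hB, hBne, hp⟩
    obtain ⟨a, ha⟩ := hBne
    exact ⟨a, hB ha, hon B hB ⟨a, ha⟩ p hp a ha⟩
  · -- rew_nonneg
    rintro p ⟨B, hB, hBne, hp⟩
    exact (h𝒜 B hB hBne).rew_nonneg p hp
  · -- rew_le
    rintro p ⟨B, hB, hBne, hp⟩
    refine (hrew B hB hBne p hp).trans ?_
    have := hsc B.card
    have h2 : Real.exp (g - 2 * P.sc q ω₁ B.card) ≤ Real.exp (g - 2 * ω₁) :=
      Real.exp_le_exp.mpr (by linarith)
    linarith
  · -- all
    exact ⟨A, Subset.refl A, hAne, hall⟩
  · -- fin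
    intro M
    have hfin : (⋃ B ∈ ((A.powerset.filter fun B => B.Nonempty) : Finset (Finset (Fin d))),
        {p ∈ 𝒜 B | ∀ a ∈ A \ B, -M ≤ p.1 a}).Finite := by
      refine Set.Finite.biUnion (Finset.finite_toSet _) ?_
      intro B hB
      simp only [coe_filter, mem_powerset, Set.mem_ofPred_eq] at hB
      exact (h𝒜 B hB.1 hB.2).fin M
    refine hfin.subset ?_
    rintro p ⟨⟨B, hB, hBne, hp⟩, hM⟩
    simp only [Set.mem_iUnion]
    refine ⟨B, by simp [hB, hBne], hp, ?_⟩
    intro a ha
    exact hM a (mem_sdiff.mp ha).1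
  · -- box
    rintro x hx p ⟨B, hB, hBne, hp⟩ hmax hup β Δ hβ hΔ hlow
    have hGd := h𝒜 B hB hBne
    have hBc : 0 < B.card := hBne.card_pos
    have hBq : B.card ≤ q := hcard B hB
    set ω2 := P.sc q ω₁ B.card with hω2
    have hω2' : ω₁ ≤ ω2 := hsc _
    -- comparison with `all`
    have hsumB : ∑ a ∈ B, p.1 a * x a = ∑ a ∈ B, g * x a :=
      sum_congr rfl fun a ha => by rw [hon B hB hBne p hp a ha]
    have hent : ∑ a ∈ A \ B, g * x a ≤ ∑ a ∈ A \ B, p.1 a * x a + p.2 := by
      have h1 := hmax (stop n A g, 0) ⟨A, Subset.refl A, hAne, hall⟩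
      have h2 : ∑ a ∈ A, stop n A g a * x a = ∑ a ∈ A, g * x a :=
        sum_congr rfl fun a ha => by simp [stop, ha]
      simp only [h2, add_zero] at h1
      rw [hsplit B hB (fun a => g * x a), hsplit B hB (fun a => p.1 a * x a), hsumB] at h1
      linarith
    have hxnn : ∀ a ∈ A \ B, 0 ≤ x a := fun a ha => (hx a (mem_sdiff.mp ha).1).le
    -- (E)
    have hS : ∑ a ∈ A \ B, x a ≤ 1 / 16 * Real.exp (g - 2 * ω2) := by
      set c := (P.Γ (q - B.card) + 1) * ω2 with hc
      have hc1 : 1 ≤ c := hGpos B.card (q - B.card)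
      have h1 : ∑ a ∈ A \ B, p.1 a * x a ≤ ∑ a ∈ A \ B, (g - c) * x a :=
        sum_le_sum fun a ha => mul_le_mul_of_nonneg_right (hGd.le p hp a ha) (hxnn a ha)
      have h2 : c * ∑ a ∈ A \ B, x a ≤ p.2 := by
        rw [← mul_sum] at h1 hent
        nlinarith
      have h3 : ∑ a ∈ A \ B, x a ≤ c * ∑ a ∈ A \ B, x a := by
        have : 0 ≤ ∑ a ∈ A \ B, x a := sum_nonneg hxnn
        nlinarith
      exact h3.trans (h2.trans (hrew B hB hBne p hp))
    have hr : p.2 ≤ 1 / 16 * Real.exp (g - 2 * ω2) := hrew B hB hBne p hp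
    -- the child's box
    obtain ⟨ωf, hωf, hgapf, hboxf⟩ := hGd.box x (fun a ha => hx a (mem_sdiff.mp ha).1) p hp
      (by
        intro p' hp'
        have h1 := hmax p' ⟨B, hB, hBne, hp'⟩
        have h2 : ∑ a ∈ B, p'.1 a * x a = ∑ a ∈ B, g * x a :=
          sum_congr rfl fun a ha => by rw [hon B hB hBne p' hp' a ha]
        rw [hsplit B hB (fun a => p'.1 a * x a), hsplit B hB (fun a => p.1 a * x a), hsumB,
          h2] at h1
        linarith) hent
    refine ⟨ωf, hω2'.trans hωf, ?_, ?_⟩
    · have : T ∪ B ∪ A \ B = T ∪ A := by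
        rw [union_assoc, union_sdiff_of_subset hB]
      rwa [this] at hgapf
    · intro j hjA
      by_cases hjB : j ∈ B
      swap
      · exact hboxf j (mem_sdiff.mpr ⟨hjA, hjB⟩)
      rw [hon B hB hBne p hp j hjB]
      have hlb : g - ω2 ≤ Real.log (x j) := by
        -- the part of the sum over `A \ B`
        have hneg : ∑ a ∈ A \ B, p.1 a * x a ≤ ∑ a ∈ A \ B, g * x a :=
          sum_le_sum fun a ha => mul_le_mul_of_nonneg_right
            (hle B hB hBne p hp a (mem_sdiff.mp ha).1) (hxnn a ha)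
        rw [← mul_sum] at hneg
        rcases Nat.lt_or_ge B.card 2 with hb | hb
        · -- `B = {j}`
          have hb1 : B.card = 1 := by omega
          obtain ⟨j', hj'⟩ := card_eq_one.mp hb1
          have hjj : j = j' := by rw [hj'] at hjB; simpa using hjB
          subst hjj
          have hω21 : ω2 = ω₁ := by rw [hω2, hb1]; rfl
          have key := level_core (q := (A.card : ℝ)) (Δ := Δ)
            (S := ∑ a ∈ A \ B, x a) (r := p.2) (g := g) (ω := ω2) (β := β) (x := x j)
            (by rw [hA]; exact_mod_cast hq) hΔ hS hr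
            (by rw [hω21]; have := Real.log_pos (by norm_num : (1 : ℝ) < 2); linarith)
            (by
              have h1 := hlow
              rw [hsplit B hB (fun a => (g - Δ) * x a), hsplit B hB (fun a => p.1 a * x a),
                hsumB, hj'] at h1
              simp only [sum_singleton, ← mul_sum] at h1
              rw [hj'] at hneg ⊢
              nlinarith)
          rw [hω21]; linarith
        · -- at least two elements
          set B' := B.erase j with hB'
          have hB'A : B' ⊆ A := (erase_subset _ _).trans hB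
          have hB'c : B'.card = B.card - 1 := card_erase_of_mem hjB
          have hB'ne : B'.Nonempty := card_pos.mp (by omega)
          have hfirst := (h𝒜 B' hB'A hB'ne).first
          set ω' := P.sc q ω₁ B'.card with hω'
          set G' := P.Γ (q - B'.card) with hG'
          set q' := q - B'.card with hq'
          have hq'1 : 1 ≤ q' := by omega
          have hscs : ω2 = G' * ω' + gam d := by
            have := P.sc_succ (q := q) (ω₁ := ω₁) (b := B'.card) hB'ne.card_pos
            have hbb : B'.card + 1 = B.card := by omega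
            rw [hbb] at this
            rw [hω2, this]
          have h1 := hmax _ ⟨B', hB'A, hB'ne, hfirst⟩
          have hdis : A \ B' = insert j (A \ B) := by
            ext a
            simp only [hB', mem_sdiff, mem_erase, mem_insert, not_and, ne_eq]
            constructor
            · rintro ⟨ha, h⟩
              by_cases haj : a = j
              · exact Or.inl haj
              · exact Or.inr ⟨ha, h haj⟩
            · rintro (rfl | ⟨ha, h⟩)
              · exact ⟨hjA, fun h => absurd rfl h⟩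
              · exact ⟨ha, fun _ => h⟩
          have hj_not : j ∉ A \ B := by simp [hjB]
          have hsum1 : ∑ a ∈ A, stop (stop n B' g) (A \ B') (g - (G' + 1) * ω') a * x a =
              (g - (G' + 1) * ω') * (x j + ∑ a ∈ A \ B, x a) + g * ∑ a ∈ B', x a := by
            rw [hsplit B' hB'A]
            congr 1
            · rw [mul_add, mul_sum, hdis, sum_insert hj_not]
              congr 1
              · simp [stop]
              · refine sum_congr rfl fun a ha => ?_
                have : a ∈ insert j (A \ B) := mem_insert_of_mem ha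
                simp only [stop, this, if_true]
            · rw [mul_sum]
              refine sum_congr rfl fun a ha => ?_
              have h2 : a ∉ A \ B' := by simp [ha]
              simp only [stop, h2, if_false, ha, if_true]
          have hsum2 : ∑ a ∈ B, x a = x j + ∑ a ∈ B', x a := by
            rw [hB', add_sum_erase _ _ hjB]
          simp only [hsum1] at h1
          rw [hsplit B hB (fun a => p.1 a * x a), hsumB, ← mul_sum, hsum2] at h1
          have key := level_core (q := (q' : ℝ)) (Δ := (G' + 1) * ω')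
            (S := ∑ a ∈ A \ B, x a) (r := p.2) (g := g) (ω := ω2) (β := g - G' * ω')
            (x := x j) (by exact_mod_cast hq'1) (hGpos B'.card _) hS hr
            (by
              have := log_two_le_gam hd
              have h3 := Real.log_pos (by norm_num : (1 : ℝ) < 2)
              linarith)
            (by
              linarith)
          have := log_two_le_gam hd
          linarith
      have hub := hup j hjA
      rw [abs_le]
      constructor <;> linarith

end Crest.Agent.Perm
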